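import Mathlib

/-!
# Brouwer degree of smooth maps: interface

`Deg E` is a degree theory (at the value `0`) for smooth maps on open subsets of `E`.
`DegStmt` says that it exists in finite dimension.  `WordDegStmt` is the Gerstenhaber-Rothaus
computation for words in unit quaternions.
-/

set_option autoImplicit false

noncomputable section

namespace Crest.Agent.Lib.Degree

open Set MeasureTheory
open scoped ContDiff Quaternion

section
variable {E : Type} [NormedAddCommGroup E] [NormedSpace ℝ E]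

/-- `f` is smooth on the open set `U` and has a compact zero set in `U`. -/
structure Adm (f : E → E) (U : Set E) : Prop where
  isOpen : IsOpen U
  smooth : ContDiffOn ℝ ∞ f U
  compact : IsCompact {u | u ∈ U ∧ f u = 0}

variable (E) in
/-- A degree theory at the value `0`. -/
structure Deg where
  deg : (E → E) → Set E → ℝ
  congr : ∀ {f g : E → E} {U : Set E}, EqOn f g U → deg f U = deg g U
  exists_zero : ∀ {f : E → E} {U : Set E}, Adm f U → deg f U ≠ 0 → ∃ u ∈ U, f u = 0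
  htp : ∀ (F : ℝ × E → E) (U : Set E), IsOpen U → ContDiffOn ℝ ∞ F (univ ×ˢ U) →
    IsCompact {p : ℝ × E | p.1 ∈ Icc (0 : ℝ) 1 ∧ p.2 ∈ U ∧ F p = 0} →
      deg (fun u => F (0, u)) U = deg (fun u => F (1, u)) U
  target : ∀ (f : E → E) (U : Set E) (y : ℝ → E), IsOpen U → ContDiffOn ℝ ∞ f U →
    ContinuousOn y (Icc 0 1) →
    IsCompact {p : ℝ × E | p.1 ∈ Icc (0 : ℝ) 1 ∧ p.2 ∈ U ∧ f p.2 = y p.1} →
      deg (fun u => f u - y 0) U = deg (fun u => f u - y 1) U
  excision : ∀ {f : E → E} {U V : Set E}, Adm f U → IsOpen V → V ⊆ U →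
    (∀ u ∈ U, f u = 0 → u ∈ V) → deg f U = deg f V
  add : ∀ {f : E → E} {V W : Set E}, Adm f V → Adm f W → Disjoint V W →
    deg f (V ∪ W) = deg f V + deg f W
  lin : ∀ {f : E → E} {U : Set E} (L : E ≃L[ℝ] E), Adm f U → deg f U ≠ 0 →
    deg (fun u => L (f u)) U ≠ 0
  id_sub : ∀ {U : Set E} {y : E}, IsOpen U → y ∈ U → deg (fun u => u - y) U = 1

end

/-- Homotopy invariance of the degree integral. -/
def IntHtpStmt : Prop :=
  ∀ (E : Type) [NormedAddCommGroup E] [NormedSpace ℝ E] [FiniteDimensional ℝ E]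
    [MeasurableSpace E] [BorelSpace E] (μ : Measure E) [μ.IsAddHaarMeasure]
    (U K : Set E) (F : ℝ × E → E) (ρ : E → ℝ), IsOpen U → IsCompact K → K ⊆ U →
    ContDiffOn ℝ ∞ F (univ ×ˢ U) → ContDiff ℝ ∞ ρ →
    (∀ t ∈ Icc (0 : ℝ) 1, ∀ u ∈ U, u ∉ K → F (t, u) ∉ tsupport ρ) →
      ∫ u in U, ρ (F (0, u)) * (fderiv ℝ (fun v => F (0, v)) u).det ∂μ =
        ∫ u in U, ρ (F (1, u)) * (fderiv ℝ (fun v => F (1, v)) u).det ∂μ

/-- Existence of the Brouwer degree. -/
def DegStmt : Prop :=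
  ∀ (E : Type) [NormedAddCommGroup E] [NormedSpace ℝ E] [FiniteDimensional ℝ E], Nonempty (Deg E)

/-! ## Words in unit quaternions -/

/-- The unit quaternions. -/
abbrev S3 : Type := unitary ℍ[ℝ]

instance : StarModule ℝ ℍ[ℝ] where
  star_smul r q := by ext <;> simp

theorem S3.norm_coe (q : S3) : ‖(q : ℍ[ℝ])‖ = 1 := CStarRing.norm_coe_unitary q

theorem smul_mem_unitary {q : ℍ[ℝ]} (h : q ≠ 0) : ‖q‖⁻¹ • q ∈ unitary ℍ[ℝ] := by
  have h0 : ‖q‖ ≠ 0 := norm_ne_zero_iff.2 h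
  have h1 : ‖q‖⁻¹ * ‖q‖⁻¹ * Quaternion.normSq q = 1 := by
    rw [Quaternion.normSq_eq_norm_mul_self]; field_simp
  constructor
  · rw [star_smul, star_trivial, smul_mul_smul_comm, Quaternion.star_mul_self,
      ← Quaternion.coe_mul_eq_smul, ← Quaternion.coe_mul, h1, Quaternion.coe_one]
  · rw [star_smul, star_trivial, smul_mul_smul_comm, Quaternion.self_mul_star,
      ← Quaternion.coe_mul_eq_smul, ← Quaternion.coe_mul, h1, Quaternion.coe_one]

open Classical in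
/-- The direction of a quaternion (`1` at `0`). -/
def nz (q : ℍ[ℝ]) : S3 := if h : q = 0 then 1 else ⟨‖q‖⁻¹ • q, smul_mem_unitary h⟩

theorem coe_nz {q : ℍ[ℝ]} (h : q ≠ 0) : (nz q : ℍ[ℝ]) = ‖q‖⁻¹ • q := by
  rw [nz, dif_neg h]

theorem nz_coe (q : S3) : nz (q : ℍ[ℝ]) = q := by
  have h : (q : ℍ[ℝ]) ≠ 0 := by
    rw [← norm_ne_zero_iff, S3.norm_coe]; exact one_ne_zero
  apply Subtype.ext
  rw [coe_nz h, S3.norm_coe, inv_one, one_smul]

variable {ι : Type}

/-- Tuples of nonzero quaternions. -/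
def U0 (ι : Type) : Set (ι → ℍ[ℝ]) := {u | ∀ i, u i ≠ 0}

/-- The value of a word at the directions of a tuple. -/
def ev (w : FreeGroup ι) (u : ι → ℍ[ℝ]) : S3 := FreeGroup.lift (fun i => nz (u i)) w

/-- The radial extension of a word map. -/
def rad (w : ι → FreeGroup ι) (u : ι → ℍ[ℝ]) : ι → ℍ[ℝ] := fun i => ‖u i‖ • (ev (w i) u : ℍ[ℝ])

/-- The exponent vector of a word. -/
def expo [DecidableEq ι] (w : FreeGroup ι) : ι → ℤ :=
  (FreeGroup.lift (fun j => Multiplicative.ofAdd (Pi.single j (1 : ℤ) : ι → ℤ)) w).toAdd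

theorem isOpen_U0 [Finite ι] : IsOpen (U0 ι) := by
  have : U0 ι = ⋂ i, {u : ι → ℍ[ℝ] | u i ≠ 0} := by ext; simp [U0]
  rw [this]
  exact isOpen_iInter_of_finite fun i => isOpen_ne_fun (continuous_apply i) continuous_const

theorem contDiffOn_norm_apply [Fintype ι] (i : ι) :
    ContDiffOn ℝ ∞ (fun u : ι → ℍ[ℝ] => ‖u i‖) (U0 ι) := fun u hu =>
  ((contDiffAt_apply ℝ _ i u).norm ℝ (hu i)).contDiffWithinAt

theorem contDiffOn_ev [Fintype ι] (w : FreeGroup ι) :
    ContDiffOn ℝ ∞ (fun u : ι → ℍ[ℝ] => (ev w u : ℍ[ℝ])) (U0 ι) := by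
  induction w using FreeGroup.induction_on with
  | C1 => simpa [ev] using contDiffOn_const
  | of i =>
    refine ContDiffOn.congr (f := fun u : ι → ℍ[ℝ] => ‖u i‖⁻¹ • u i) ?_ ?_
    · exact ((contDiffOn_norm_apply i).inv fun u hu => norm_ne_zero_iff.2 (hu i)).smul
        (contDiff_apply ℝ _ i).contDiffOn
    · intro u hu
      simp only [ev, FreeGroup.lift_apply_of, coe_nz (hu i)]
  | inv_of i h =>
    refine ContDiffOn.congr ((starL' ℝ : ℍ[ℝ] ≃L[ℝ] ℍ[ℝ]).contDiff.comp_contDiffOn h) ?_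
    intro u _
    simp only [ev, map_inv]
    rfl
  | mul a b ha hb =>
    refine ContDiffOn.congr (ha.mul hb) ?_
    intro u _
    simp [ev]

theorem contDiffOn_rad [Fintype ι] (w : ι → FreeGroup ι) : ContDiffOn ℝ ∞ (rad w) (U0 ι) :=
  contDiffOn_pi.2 fun i => (contDiffOn_norm_apply i).smul (contDiffOn_ev (w i))

theorem norm_rad (w : ι → FreeGroup ι) (u : ι → ℍ[ℝ]) (i : ι) : ‖rad w u i‖ = ‖u i‖ := by
  simp [rad, norm_smul]

/-- A nonsingular system of words has nonzero degree. -/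
def WordDegStmt : Prop :=
  ∀ (ι : Type) [Fintype ι] [DecidableEq ι] (D : Deg (ι → ℍ[ℝ])) (w : ι → FreeGroup ι),
    (Matrix.of fun i j => expo (w i) j).det ≠ 0 → D.deg (fun u => rad w u - 1) (U0 ι) ≠ 0

end Crest.Agent.Lib.Degree
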