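import Crest.Agent.Lib.Degree.Defs

/-!
# Existence of the Brouwer degree, from the homotopy invariance of the degree integral
-/

set_option autoImplicit false

noncomputable section

namespace Crest.Agent.Lib.Degree

open Set MeasureTheory Metric Filter Topology
open scoped ContDiff

namespace Ex

variable {E : Type} [NormedAddCommGroup E] [NormedSpace ℝ E]

/-- `V` is a relatively compact neighbourhood of the zero set. -/
structure Nb (f : E → E) (U V : Set E) : Prop where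
  op : IsOpen V
  cpt : IsCompact (closure V)
  sub : closure V ⊆ U
  zero : ∀ u ∈ U, f u = 0 → u ∈ V

/-- Test functions. -/
structure T (r : ℝ) (ρ : E → ℝ) : Prop where
  smooth : ContDiff ℝ ∞ ρ
  supp : tsupport ρ ⊆ ball 0 r

theorem T.mono {r r' : ℝ} {ρ : E → ℝ} (h : T r ρ) (hr : r ≤ r') : T r' ρ :=
  ⟨h.smooth, h.supp.trans (ball_subset_ball hr)⟩

theorem T.eq_zero {r : ℝ} {ρ : E → ℝ} (h : T r ρ) {y : E} (hy : r ≤ ‖y‖) : ρ y = 0 :=
  image_eq_zero_of_notMem_tsupport fun hc => (mem_ball_zero_iff.1 (h.supp hc)).not_ge hy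

omit [NormedSpace ℝ E] in
theorem exists_sep {X : Type} [TopologicalSpace X] {C : Set X} {g : X → E} (hC : IsCompact C)
    (hg : ContinuousOn g C) (h : ∀ u ∈ C, g u ≠ 0) : ∃ r, 0 < r ∧ ∀ u ∈ C, r ≤ ‖g u‖ :=
  hC.exists_forall_le' hg.norm fun u hu => norm_pos_iff.2 (h u hu)

theorem adm_of_htp {F : ℝ × E → E} {U : Set E} (hU : IsOpen U) {t : ℝ} (ht : t ∈ Icc (0 : ℝ) 1)
    (hF : ContDiffOn ℝ ∞ (fun u => F (t, u)) U)
    (hc : IsCompact {p : ℝ × E | p.1 ∈ Icc (0 : ℝ) 1 ∧ p.2 ∈ U ∧ F p = 0}) :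
    Adm (fun u => F (t, u)) U :=
  ⟨hU, hF, by simpa [ht.1, ht.2] using (IsClosedEmbedding.of_continuous_injective_isClosedMap
    (Continuous.prodMk_right t) (Prod.mk_right_injective t)
      (isClosedMap_prodMk_left t)).isCompact_preimage hc⟩

variable [FiniteDimensional ℝ E]

theorem exists_nb {f : E → E} {U : Set E} (h : Adm f U) : ∃ V, Nb f U V :=
  let ⟨V, h1, h2, h3, h4⟩ := exists_open_between_and_isCompact_closure h.compact h.isOpen
    fun _ hu => hu.1
  ⟨V, h1, h4, h3, fun _ hu h0 => h2 ⟨hu, h0⟩⟩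

theorem exists_nb_htp {F : ℝ × E → E} {U : Set E} (hU : IsOpen U)
    (hF : ContinuousOn F (Icc 0 1 ×ˢ U))
    (hc : IsCompact {p : ℝ × E | p.1 ∈ Icc (0 : ℝ) 1 ∧ p.2 ∈ U ∧ F p = 0}) :
    ∃ V r, 0 < r ∧ (∀ t ∈ Icc (0 : ℝ) 1, Nb (fun u => F (t, u)) U V) ∧
      ∀ t ∈ Icc (0 : ℝ) 1, ∀ u ∈ closure V \ V, r ≤ ‖F (t, u)‖ := by
  obtain ⟨V, h1, h2, h3, h4⟩ := exists_open_between_and_isCompact_closure
    (hc.image continuous_snd) hU (by rintro _ ⟨p, hp, rfl⟩; exact hp.2.1)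
  obtain ⟨r, hr, h⟩ := exists_sep (isCompact_Icc.prod (h4.diff h1))
    (hF.mono (prod_mono_right (sdiff_subset.trans h3)))
    fun p hp h0 => hp.2.2 (h2 ⟨p, ⟨hp.1, h3 hp.2.1, h0⟩, rfl⟩)
  exact ⟨V, r, hr, fun t ht => ⟨h1, h4, h3, fun u hu h0 => h2 ⟨(t, u), ⟨ht, hu, h0⟩, rfl⟩⟩,
    fun t ht u hu => h (t, u) ⟨ht, hu⟩⟩

variable [MeasurableSpace E] [BorelSpace E] (μ : Measure E) [μ.IsAddHaarMeasure]

theorem exists_T {r : ℝ} (hr : 0 < r) : ∃ ρ : E → ℝ, T r ρ ∧ 0 < ∫ y, ρ y ∂μ := by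
  let b : ContDiffBump (0 : E) := ⟨r / 4, r / 2, by positivity, by linarith⟩
  exact ⟨b, ⟨b.contDiff, b.tsupport_eq ▸ closedBall_subset_ball (half_lt_self hr)⟩, b.integral_pos⟩

/-- The degree integral. -/
def I (f : E → E) (V : Set E) (ρ : E → ℝ) : ℝ := ∫ u in V, ρ (f u) * (fderiv ℝ f u).det ∂μ

/-- The degree integral computes `d`. -/
def Has (f : E → E) (V : Set E) (d : ℝ) : Prop :=
  ∃ r, 0 < r ∧ ∀ ρ, T r ρ → I μ f V ρ = d * ∫ y, ρ y ∂μ

variable {μ} {f g : E → E} {U V W : Set E} {d d' : ℝ}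

theorem Has.unique (h : Has μ f V d) (h' : Has μ f V d') : d = d' := by
  obtain ⟨r, hr, h⟩ := h
  obtain ⟨r', hr', h'⟩ := h'
  obtain ⟨ρ, hρ, hp⟩ := exists_T μ (lt_min hr hr')
  exact mul_right_cancel₀ hp.ne'
    ((h ρ (hρ.mono (min_le_left _ _))).symm.trans (h' ρ (hρ.mono (min_le_right _ _))))

omit [FiniteDimensional ℝ E] [BorelSpace E] [μ.IsAddHaarMeasure] in
theorem Has.of_eq (h : Has μ f V d) {r : ℝ} (hr : 0 < r)
    (he : ∀ ρ, T r ρ → I μ g W ρ = I μ f V ρ) : Has μ g W d :=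
  let ⟨_, hr', h⟩ := h
  ⟨_, lt_min hr hr', fun ρ hρ =>
    (he ρ (hρ.mono (min_le_left _ _))).trans (h ρ (hρ.mono (min_le_right _ _)))⟩

omit [FiniteDimensional ℝ E] [μ.IsAddHaarMeasure] in
theorem Has.congr (h : Has μ f V d) (hV : IsOpen V) (he : EqOn f g V) : Has μ g V d :=
  h.of_eq one_pos fun ρ _ => setIntegral_congr_fun hV.measurableSet fun u hu => by
    simp only [he hu, (he.eventuallyEq_of_mem (hV.mem_nhds hu)).fderiv_eq]

omit [FiniteDimensional ℝ E] [μ.IsAddHaarMeasure] in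
theorem Has.of_nb (hf : Adm f U) (hV : Nb f U V) (hW : Nb f U W) (h : Has μ f V d) :
    Has μ f W d := by
  have key : ∀ {V W : Set E}, Nb f U V → Nb f U W →
      ∃ r, 0 < r ∧ ∀ ρ, T r ρ → I μ f V ρ = I μ f (V ∩ W) ρ := fun {V W} hV hW => by
    obtain ⟨r, hr, h⟩ := exists_sep (hV.cpt.diff hW.op)
      (hf.smooth.continuousOn.mono (sdiff_subset.trans hV.sub))
      fun u hu h0 => hu.2 (hW.zero u (hV.sub hu.1) h0)
    exact ⟨r, hr, fun ρ hρ => setIntegral_eq_of_subset_of_forall_sdiff_eq_zero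
      hV.op.measurableSet inter_subset_left fun u hu => by
        rw [hρ.eq_zero (h u ⟨subset_closure hu.1, fun h => hu.2 ⟨hu.1, h⟩⟩), zero_mul]⟩
  obtain ⟨r, hr, h1⟩ := key hV hW
  obtain ⟨r', hr', h2⟩ := key hW hV
  exact (h.of_eq hr fun ρ hρ => (h1 ρ hρ).symm).of_eq hr' fun ρ hρ => inter_comm V W ▸ h2 ρ hρ

theorem I_htp (H : IntHtpStmt) {F : ℝ × E → E} (hF : ContDiffOn ℝ ∞ F (univ ×ˢ U)) (hV : IsOpen V)
    (hc : IsCompact (closure V)) (hs : closure V ⊆ U) {r : ℝ}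
    (hr : ∀ t ∈ Icc (0 : ℝ) 1, ∀ u ∈ closure V \ V, r ≤ ‖F (t, u)‖) {ρ : E → ℝ} (hρ : T r ρ) :
    I μ (fun u => F (0, u)) V ρ = I μ (fun u => F (1, u)) V ρ := by
  have h1 := isCompact_Icc (a := (0 : ℝ)) (b := 1) |>.prod hc
  have h2 := h1.of_isClosed_subset ((hF.continuousOn.mono (prod_mono (subset_univ _) hs)
    ).preimage_isClosed_of_isClosed h1.isClosed (isClosed_tsupport ρ)) inter_subset_left
  refine H E μ V _ F ρ hV (h2.image continuous_snd) ?_
    (hF.mono (prod_mono_right (subset_closure.trans hs))) hρ.smooth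
    fun t ht u hu hK h => hK ⟨(t, u), ⟨⟨ht, subset_closure hu⟩, h⟩, rfl⟩
  rintro _ ⟨p, ⟨hp, h⟩, rfl⟩
  by_contra hn
  exact (mem_ball_zero_iff.1 (hρ.supp h)).not_ge (hr _ hp.1 _ ⟨hp.2, hn⟩)

theorem I_shift (H : IntHtpStmt) (hf : ContDiffOn ℝ ∞ f U) (hV : IsOpen V)
    (hc : IsCompact (closure V)) (hs : closure V ⊆ U) {r : ℝ}
    (hr : ∀ u ∈ closure V \ V, 2 * r ≤ ‖f u‖) {v : E} (hv : ‖v‖ ≤ r) {ρ : E → ℝ} (hρ : T r ρ) :
    I μ f V ρ = I μ (fun u => f u - v) V ρ := by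
  simpa using I_htp (μ := μ) H (F := fun p => f p.2 - p.1 • v)
    ((hf.comp contDiffOn_snd fun _ hp => hp.2).sub (by fun_prop)) hV hc hs (fun t ht u hu => by
      have h1 : ‖t • v‖ ≤ r := by
        rw [norm_smul, Real.norm_of_nonneg ht.1]
        exact (mul_le_of_le_one_left (norm_nonneg _) ht.2).trans hv
      linarith [hr u hu, norm_sub_norm_le (f u) (t • v)]) hρ

omit [MeasurableSpace E] [BorelSpace E] [FiniteDimensional ℝ E] in
theorem continuousOn_det (hf : Adm f U) :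
    ContinuousOn (fun u => (fderiv ℝ f u).det) U :=
  ContinuousLinearMap.continuous_det.comp_continuousOn
    (hf.smooth.continuousOn_fderiv_of_isOpen hf.isOpen (by simp))

theorem exists_has (H : IntHtpStmt) (hf : Adm f U) (hV : Nb f U V) : ∃ d, Has μ f V d := by
  obtain ⟨r, hr, h⟩ := exists_sep (hV.cpt.diff hV.op)
    (hf.smooth.continuousOn.mono (sdiff_subset.trans hV.sub))
    fun u hu h0 => hu.2 (hV.zero u (hV.sub hu.1) h0)
  have key : ∀ ρ ρ' : E → ℝ, T (r / 2) ρ → T (r / 2) ρ' → I μ f V ρ * ∫ y, ρ' y ∂μ =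
      ∫ u in V, (∫ v, ρ (f u - v) * ρ' v ∂μ) * (fderiv ℝ f u).det ∂μ := fun ρ ρ' hρ hρ' => by
    have cs : ∀ {ρ : E → ℝ}, T (r / 2) ρ → HasCompactSupport ρ := fun hρ =>
      (isCompact_closedBall 0 _).of_isClosed_subset (isClosed_tsupport _)
        (hρ.supp.trans ball_subset_closedBall)
    obtain ⟨B, hB⟩ := hρ.smooth.continuous.bounded_above_of_compact_support (cs hρ)
    have i1 : Integrable (fun p : E × E => ρ (f p.2 - p.1) * (ρ' p.1 * (fderiv ℝ f p.2).det))
        (μ.prod (μ.restrict V)) :=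
      ((hρ'.smooth.continuous.integrable_of_hasCompactSupport (cs hρ')).mul_prod
        ((((continuousOn_det hf).mono hV.sub).integrableOn_compact hV.cpt).mono_set
          subset_closure)).bdd_mul (hρ.smooth.continuous.comp_aestronglyMeasurable
            (((hf.smooth.continuousOn.mono (subset_closure.trans hV.sub)).aestronglyMeasurable
              hV.op.measurableSet).comp_snd.sub continuous_fst.aestronglyMeasurable))
          (.of_forall fun p => hB _)
    have := integral_integral_swap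
      (f := fun v u => ρ (f u - v) * (ρ' v * (fderiv ℝ f u).det)) i1
    simp only [← integral_mul_const, mul_assoc, ← this]
    rw [← integral_const_mul]
    refine integral_congr_ae (.of_forall fun v => ?_)
    by_cases hv : ‖v‖ ≤ r / 2
    · simp only [I_shift (μ := μ) H hf.smooth hV.op hV.cpt hV.sub (r := r / 2)
        (fun u hu => by linarith [h u hu]) hv hρ]
      simp only [I, fderiv_sub_const, ← integral_mul_const]
      exact integral_congr_ae (.of_forall fun u => by ring)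
    · simp [hρ'.eq_zero (not_le.1 hv).le]
  obtain ⟨ρ', hρ', hp⟩ := exists_T μ (half_pos hr)
  refine ⟨I μ f V ρ' / ∫ y, ρ' y ∂μ, _, half_pos hr, fun ρ hρ => ?_⟩
  rw [div_mul_eq_mul_div, eq_div_iff hp.ne', key ρ ρ' hρ hρ', key ρ' ρ hρ' hρ]
  refine integral_congr_ae (.of_forall fun u => ?_)
  simp only
  rw [← integral_sub_left_eq_self _ μ (f u)]
  simp only [sub_sub_cancel, mul_comm (ρ _)]

variable (μ) in
/-- The degree. -/
def deg (f : E → E) (U : Set E) : ℝ :=
  Classical.epsilon fun d => Adm f U ∧ ∃ V, Nb f U V ∧ Has μ f V d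

theorem has_deg (H : IntHtpStmt) (hf : Adm f U) (hV : Nb f U V) : Has μ f V (deg μ f U) :=
  let ⟨_, _, hW, h⟩ := Classical.epsilon_spec (p := fun d => Adm f U ∧ ∃ V, Nb f U V ∧ Has μ f V d)
    (let ⟨d, hd⟩ := exists_has H hf hV; ⟨d, hf, V, hV, hd⟩)
  h.of_nb hf hW hV

theorem deg_eq (H : IntHtpStmt) (hf : Adm f U) (hV : Nb f U V) (h : Has μ f V d) :
    deg μ f U = d := (has_deg H hf hV).unique h

omit [FiniteDimensional ℝ E] [μ.IsAddHaarMeasure] in
theorem deg_congr (h : EqOn f g U) : deg μ f U = deg μ g U := by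
  have key : ∀ {f g : E → E}, EqOn f g U → ∀ d, (Adm f U ∧ ∃ V, Nb f U V ∧ Has μ f V d) →
      Adm g U ∧ ∃ V, Nb g U V ∧ Has μ g V d := by
    rintro f g h d ⟨hf, V, hV, hd⟩
    refine ⟨⟨hf.isOpen, hf.smooth.congr h.symm, ?_⟩, V,
      ⟨hV.op, hV.cpt, hV.sub, fun u hu h0 => hV.zero u hu ((h hu).trans h0)⟩,
      hd.congr hV.op (h.mono (subset_closure.trans hV.sub))⟩
    convert hf.compact using 3 with u
    exact and_congr_right fun hu => by rw [h hu]
  exact congrArg Classical.epsilon (funext fun d => propext ⟨key h d, key h.symm d⟩)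

theorem Has.lin (L : E ≃L[ℝ] E) (h : Has μ f V d) :
    Has μ (fun u => L (f u)) V
      ((L : E →L[ℝ] E).det * |(LinearMap.det (L : E →ₗ[ℝ] E))⁻¹| * d) := by
  obtain ⟨r, hr, h⟩ := h
  obtain ⟨r', hr', h'⟩ := Metric.isOpen_iff.1 (isOpen_ball.preimage L.symm.continuous) 0
    (show L.symm 0 ∈ ball 0 r by simpa using hr)
  refine ⟨r', hr', fun ρ hρ => ?_⟩
  have h1 := h (ρ ∘ L) ⟨hρ.smooth.comp L.contDiff, fun y hy => by
    simpa using h' (hρ.supp (tsupport_comp_subset_preimage ρ L.continuous hy))⟩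
  have h2 : ∫ y, (ρ ∘ L) y ∂μ = |(LinearMap.det (L : E →ₗ[ℝ] E))⁻¹| * ∫ y, ρ y ∂μ := by
    have := L.toHomeomorph.measurableEmbedding.integral_map (μ := μ) ρ
    rw [show Measure.map L.toHomeomorph μ = _ from Measure.map_linearMap_addHaar_eq_smul_addHaar μ
      (LinearEquiv.isUnit_det' L.toLinearEquiv).ne_zero, integral_smul_measure,
      ENNReal.toReal_ofReal (abs_nonneg _)] at this
    exact this.symm
  have h3 : I μ (fun u => L (f u)) V ρ = (L : E →L[ℝ] E).det * I μ f V (ρ ∘ L) := by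
    simp only [I, ← integral_const_mul]
    refine integral_congr_ae (.of_forall fun u => ?_)
    have : fderiv ℝ (fun u => L (f u)) u = (L : E →L[ℝ] E).comp (fderiv ℝ f u) := L.comp_fderiv
    simp only [this, ContinuousLinearMap.det, ContinuousLinearMap.toLinearMap_comp,
      LinearMap.det_comp, Function.comp_apply]
    ring
  rw [h3, h1, h2]
  ring

end Ex

open Ex

theorem degStmt (H : IntHtpStmt) : DegStmt := by
  intro E _ _ _
  borelize E
  let μ : Measure E := Measure.addHaar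
  refine ⟨⟨deg μ, deg_congr, fun {f U} hf h => ?_, fun F U hU hF hc => ?_,
    fun f U y hU hf hy hc => ?_, fun {f U V} hf hV hVU h0 => ?_, fun {f V W} hV hW hd => ?_,
    fun {f U} L hf h => ?_, fun {U y} hU hy => ?_⟩⟩
  · by_contra hc
    exact h (deg_eq H hf (V := ∅) ⟨isOpen_empty, by simp, by simp, fun u hu h0 => hc ⟨u, hu, h0⟩⟩
      ⟨1, one_pos, fun ρ _ => by simp [I]⟩)
  · obtain ⟨V, r, hr, hV, h⟩ := exists_nb_htp hU
      (hF.continuousOn.mono (prod_mono_left (subset_univ _))) hc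
    have ha : ∀ t ∈ Icc (0 : ℝ) 1, Adm (fun u => F (t, u)) U := fun t ht => adm_of_htp hU ht
      (hF.comp (by fun_prop) fun u hu => ⟨trivial, hu⟩) hc
    have h0 : (0 : ℝ) ∈ Icc (0 : ℝ) 1 := by simp
    have h1 : (1 : ℝ) ∈ Icc (0 : ℝ) 1 := by simp
    exact deg_eq H (ha 0 h0) (hV 0 h0) ((has_deg H (ha 1 h1) (hV 1 h1)).of_eq hr fun ρ hρ =>
      I_htp H hF (hV 0 h0).op (hV 0 h0).cpt (hV 0 h0).sub h hρ)
  · simp only [← sub_eq_zero (a := f _)] at hc
    obtain ⟨V, r, hr, hV, h⟩ := exists_nb_htp (F := fun p => f p.2 - y p.1) hU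
      ((hf.continuousOn.comp continuousOn_snd fun _ hp => hp.2).sub
        (hy.comp continuousOn_fst fun _ hp => hp.1)) hc
    have ha : ∀ t ∈ Icc (0 : ℝ) 1, Adm (fun u => f u - y t) U := fun t ht =>
      adm_of_htp (F := fun p => f p.2 - y p.1) hU ht (hf.sub (contDiffOn_const (c := y t))) hc
    refine isPreconnected_Icc.induction₂
      (fun s t => deg μ (fun u => f u - y s) U = deg μ (fun u => f u - y t) U) (fun s hs => ?_)
      (fun _ _ _ _ _ _ => Eq.trans) (fun _ _ _ _ => Eq.symm) (left_mem_Icc.2 zero_le_one)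
      (right_mem_Icc.2 zero_le_one)
    filter_upwards [hy s hs (closedBall_mem_nhds _ (half_pos hr)), self_mem_nhdsWithin] with t h1 ht
    refine deg_eq H (ha s hs) (hV s hs) ((has_deg H (ha t ht) (hV t ht)).of_eq (half_pos hr)
      fun ρ hρ => ?_)
    simpa using I_shift (μ := μ) H (ha s hs).smooth (hV s hs).op (hV s hs).cpt (hV s hs).sub
      (fun u hu => by linarith [h s hs u hu]) (mem_closedBall_iff_norm.1 h1) hρ
  · have hf' : Adm f V := ⟨hV, hf.smooth.mono hVU, by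
      convert hf.compact using 1
      exact Set.ext fun u => ⟨fun h => ⟨hVU h.1, h.2⟩, fun h => ⟨h0 u h.1 h.2, h.2⟩⟩⟩
    obtain ⟨W, hW⟩ := exists_nb hf'
    exact deg_eq H hf ⟨hW.op, hW.cpt, hW.sub.trans hVU, fun u hu h => hW.zero u (h0 u hu h) h⟩
      (has_deg H hf' hW)
  · obtain ⟨V', hV'⟩ := exists_nb hV
    obtain ⟨W', hW'⟩ := exists_nb hW
    obtain ⟨r, hr, h⟩ := has_deg (μ := μ) H hV hV'
    obtain ⟨r', hr', h'⟩ := has_deg (μ := μ) H hW hW'
    refine deg_eq H (V := V' ∪ W') ⟨hV.isOpen.union hW.isOpen,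
      hV.smooth.union_of_isOpen hW.smooth hV.isOpen hW.isOpen, ?_⟩
      ⟨hV'.op.union hW'.op, by rw [closure_union]; exact hV'.cpt.union hW'.cpt,
        by rw [closure_union]; exact union_subset_union hV'.sub hW'.sub,
        fun u hu h0 => hu.imp (hV'.zero u · h0) (hW'.zero u · h0)⟩
      ⟨_, lt_min hr hr', fun ρ hρ => ?_⟩
    · simpa only [mem_union, or_and_right, ofPred_or] using hV.compact.union hW.compact
    · have hi : ∀ {V V' : Set E}, Adm f V → Nb f V V' →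
          IntegrableOn (fun u => ρ (f u) * (fderiv ℝ f u).det) V' μ := fun hV hV' =>
        ((((hρ.smooth.continuous.comp_continuousOn hV.smooth.continuousOn).mul
          (continuousOn_det hV)).mono hV'.sub).integrableOn_compact hV'.cpt).mono_set subset_closure
      rw [add_mul, ← h ρ (hρ.mono (min_le_left _ _)), ← h' ρ (hρ.mono (min_le_right _ _))]
      exact setIntegral_union (hd.mono (subset_closure.trans hV'.sub) (subset_closure.trans hW'.sub))
        hW'.op.measurableSet (hi hV hV') (hi hW hW')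
  · obtain ⟨V, hV⟩ := exists_nb hf
    have := (LinearEquiv.isUnit_det' L.toLinearEquiv).ne_zero
    rw [deg_eq H (f := fun u => L (f u)) ⟨hf.isOpen, L.contDiff.comp_contDiffOn hf.smooth,
      by simpa using hf.compact⟩
      ⟨hV.op, hV.cpt, hV.sub, by simpa using hV.zero⟩ ((has_deg H hf hV).lin L)]
    exact mul_ne_zero (mul_ne_zero this (abs_ne_zero.2 (inv_ne_zero this))) h
  · have hf : Adm (fun u => u - y) U := ⟨hU, by fun_prop,
      (Set.Subsingleton.finite fun a ha b hb =>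
        (sub_eq_zero.1 ha.2).trans (sub_eq_zero.1 hb.2).symm).isCompact⟩
    obtain ⟨V, hV⟩ := exists_nb hf
    obtain ⟨r, hr, h⟩ := Metric.isOpen_iff.1 hV.op y (hV.zero y hy (sub_self y))
    refine deg_eq H hf hV ⟨r, hr, fun ρ hρ => ?_⟩
    simp only [I, fderiv_sub_const, fderiv_fun_id, ContinuousLinearMap.det,
      ContinuousLinearMap.coe_id, LinearMap.det_id, mul_one, one_mul]
    rw [setIntegral_eq_integral_of_forall_compl_eq_zero fun u hu => hρ.eq_zero
      (not_lt.1 fun hc => hu (h (mem_ball_iff_norm.2 hc))), integral_sub_right_eq_self]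

end Crest.Agent.Lib.Degree
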