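import Crest.Agent.Lib.Degree.Defs

/-!
# Homotopy invariance of the degree integral
-/

set_option autoImplicit false

noncomputable section

namespace Crest.Agent.Lib.Degree

open Set MeasureTheory Module Filter Topology
open scoped ContDiff

namespace IntHtp

/-- Pointwise divergence identity for constant vector fields. -/
theorem sum_fderiv_eq_zero {X Y : Type*} [NormedAddCommGroup X] [NormedSpace ℝ X]
    [NormedAddCommGroup Y] [NormedSpace ℝ Y] {d : ℕ} {w : Y → Y [⋀^Fin d]→L[ℝ] ℝ} {F : X → Y}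
    (V : Fin (d + 1) → X) {x : X} (hw : DifferentiableAt ℝ w (F x)) (hF : ContDiffAt ℝ 2 F x)
    (hdep : ¬ LinearIndependent ℝ fun i => fderiv ℝ F x (V i)) :
    ∑ i : Fin (d + 1), (-1 : ℝ) ^ i.val *
      fderiv ℝ (fun y => w (F y) (fun j => fderiv ℝ F y (V (i.succAbove j)))) x (V i) = 0 := by
  set Ω : X → X [⋀^Fin d]→L[ℝ] ℝ := fun y => (w (F y)).compContinuousLinearMap (fderiv ℝ F y)
    with hΩ
  have hΩd : DifferentiableAt ℝ Ω x :=
    (hw.comp x (hF.differentiableAt (by norm_num))).continuousAlternatingMapCompContinuousLinearMap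
      ((hF.fderiv_right (m := 1) (by norm_num)).differentiableAt (by norm_num))
  have h1 : extDeriv Ω x V = 0 := by
    rw [hΩ, extDeriv_pullback hw hF (by simp)]
    exact (extDeriv w (F x)).toAlternatingMap.map_linearDependent _ hdep
  have h2 := extDeriv_apply hΩd V
  rw [h1] at h2
  refine Eq.trans (Finset.sum_congr rfl fun i _ => ?_) h2.symm
  rw [zsmul_eq_mul]
  push_cast
  rfl

theorem exists_detForm {E : Type*} [NormedAddCommGroup E] [NormedSpace ℝ E]
    {d : ℕ} (b : Basis (Fin d) ℝ E) : ∃ w₀ : E [⋀^Fin d]→L[ℝ] ℝ, ∀ v, w₀ v = b.det v := by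
  have : FiniteDimensional ℝ E := b.finiteDimensional_of_finite
  have hc : Continuous fun v : Fin d → E => b.det v := by
    simp only [Basis.det_apply]
    refine Continuous.matrix_det (continuous_matrix fun i j => ?_)
    exact (b.coord i).continuous_of_finiteDimensional.comp (continuous_apply j)
  exact ⟨{ b.det with cont := hc }, fun _ => rfl⟩

variable {E : Type*} [NormedAddCommGroup E] [NormedSpace ℝ E] [FiniteDimensional ℝ E]
  [MeasurableSpace E] [BorelSpace E] (μ : Measure E) [μ.IsAddHaarMeasure] {U K : Set E}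

/-- The integral of a directional derivative of a function supported in `K ⊆ U` vanishes. -/
theorem setIntegral_fderiv_eq_zero (hU : IsOpen U) (hK : IsCompact K) (hKU : K ⊆ U) {g : E → ℝ}
    (hg : ContDiffOn ℝ 1 g U) (h0 : ∀ u ∈ U, u ∉ K → g u = 0) (v : E) :
    ∫ u in K, fderiv ℝ g u v ∂μ = 0 := by
  set G : E → ℝ := U.indicator g with hG
  have e1 : ∀ u ∈ U, G =ᶠ[𝓝 u] g := fun u hu =>
    eventually_of_mem (hU.mem_nhds hu) fun w hw => indicator_of_mem hw g
  have hGK : ∀ w, w ∉ K → G w = 0 := fun w hw => by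
    by_cases hwU : w ∈ U
    · rw [hG, indicator_of_mem hwU, h0 w hwU hw]
    · rw [hG, indicator_of_notMem hwU]
  have e2 : ∀ u, u ∉ K → G =ᶠ[𝓝 u] fun _ => 0 := fun u hu =>
    eventually_of_mem (hK.isClosed.isOpen_compl.mem_nhds hu) hGK
  have hGd : ContDiff ℝ 1 G := contDiff_iff_contDiffAt.2 fun u => by
    by_cases hu : u ∈ K
    · exact (hg.contDiffAt (hU.mem_nhds (hKU hu))).congr_of_eventuallyEq (e1 u (hKU hu))
    · exact contDiffAt_const.congr_of_eventuallyEq (e2 u hu)
  have hGs : HasCompactSupport G := HasCompactSupport.intro hK hGK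
  have hc : Continuous fun u => fderiv ℝ G u v :=
    (hGd.continuous_fderiv (by norm_num)).clm_apply continuous_const
  have hz : ∀ u, u ∉ K → fderiv ℝ G u v = 0 := fun u hu => by
    rw [(e2 u hu).fderiv_eq]; simp
  have hI : ∫ u, fderiv ℝ G u v ∂μ = 0 := by
    have := integral_mul_fderiv_eq_neg_fderiv_mul_of_integrable (μ := μ) (f := fun _ : E => (1 : ℝ))
      (g := G) (v := v) (by simp)
      (by simpa using hc.integrable_of_hasCompactSupport (HasCompactSupport.intro hK hz))
      (by simpa using hGd.continuous.integrable_of_hasCompactSupport hGs)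
      (fun x _ => differentiableAt_const _) (fun x _ => hGd.differentiable (by norm_num) x)
    simpa using this
  rw [← hI, ← setIntegral_eq_integral_of_forall_compl_eq_zero hz]
  refine setIntegral_congr_fun hK.measurableSet fun u hu => ?_
  simp only [(e1 u (hKU hu)).fderiv_eq]

omit [FiniteDimensional ℝ E] [MeasurableSpace E] [BorelSpace E] in
theorem hasFDerivAt_slice_right {Y : Type*} [NormedAddCommGroup Y] [NormedSpace ℝ Y]
    {f : ℝ × E → Y} {t : ℝ} {u : E} (hf : DifferentiableAt ℝ f (t, u)) :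
    HasFDerivAt (fun v => f (t, v)) ((fderiv ℝ f (t, u)).comp (ContinuousLinearMap.inr ℝ ℝ E)) u :=
  hf.hasFDerivAt.comp u (hasFDerivAt_prodMk_right t u)

omit [FiniteDimensional ℝ E] [MeasurableSpace E] [BorelSpace E] in
theorem hasDerivAt_slice_left {f : ℝ × E → ℝ} {t : ℝ} {u : E} (hf : DifferentiableAt ℝ f (t, u)) :
    HasDerivAt (fun s => f (s, u)) (fderiv ℝ f (t, u) (1, 0)) t :=
  hf.hasFDerivAt.comp_hasDerivAt t ((hasDerivAt_id t).prodMk (hasDerivAt_const t u))

omit [FiniteDimensional ℝ E] in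
/-- Differentiation under the integral over `K`. -/
theorem hasDerivAt_setIntegral (hU : IsOpen U) (hK : IsCompact K) (hKU : K ⊆ U) {f : ℝ × E → ℝ}
    (hf : ContDiffOn ℝ 1 f (univ ×ˢ U)) (t : ℝ) :
    HasDerivAt (fun s => ∫ u in K, f (s, u) ∂μ) (∫ u in K, fderiv ℝ f (t, u) (1, 0) ∂μ) t := by
  have hO : IsOpen ((univ : Set ℝ) ×ˢ U) := isOpen_univ.prod hU
  have hc : ContinuousOn (fun p => fderiv ℝ f p (1, 0)) (univ ×ˢ U) :=
    (hf.continuousOn_fderiv_of_isOpen hO le_rfl).clm_apply continuousOn_const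
  have hsl : ∀ {g : ℝ × E → ℝ}, ContinuousOn g (univ ×ˢ U) → ∀ s,
      ContinuousOn (fun u => g (s, u)) K := fun hg s =>
    hg.comp (Continuous.prodMk_right s).continuousOn fun u hu => ⟨trivial, hKU hu⟩
  obtain ⟨C, hC⟩ := ((isCompact_closedBall t 1).prod hK).exists_bound_of_continuousOn
    (hc.mono (prod_mono (subset_univ _) hKU))
  have : IsFiniteMeasure (μ.restrict K) := ⟨by simpa using hK.measure_lt_top⟩
  refine (hasDerivAt_integral_of_dominated_loc_of_deriv_le (μ := μ.restrict K)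
    (F := fun s u => f (s, u)) (F' := fun s u => fderiv ℝ f (s, u) (1, 0)) (bound := fun _ => C)
    (Metric.closedBall_mem_nhds t one_pos)
    (Eventually.of_forall fun s =>
      (hsl hf.continuousOn s).aestronglyMeasurable hK.measurableSet)
    ((hsl hf.continuousOn t).integrableOn_compact hK)
    ((hsl hc t).aestronglyMeasurable hK.measurableSet) ?_ (integrable_const C) ?_).2
  · filter_upwards [ae_restrict_mem hK.measurableSet] with u hu s hs using hC (s, u) ⟨hs, hu⟩
  · filter_upwards [ae_restrict_mem hK.measurableSet] with u hu s _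
    exact hasDerivAt_slice_left
      ((hf.contDiffAt (hO.mem_nhds ⟨trivial, hKU hu⟩)).differentiableAt (by norm_num))

/-- A conservation law with compact support conserves the integral. -/
theorem integral_eq_of_div (hU : IsOpen U) (hK : IsCompact K) (hKU : K ⊆ U) {d : ℕ}
    {f₀ : ℝ × E → ℝ} {f : Fin d → ℝ × E → ℝ} (c : Fin d → ℝ) (v : Fin d → E)
    (h₀ : ContDiffOn ℝ 1 f₀ (univ ×ˢ U)) (hf : ∀ i, ContDiffOn ℝ 1 (f i) (univ ×ˢ U))
    (hz₀ : ∀ t ∈ Icc (0 : ℝ) 1, ∀ u ∈ U, u ∉ K → f₀ (t, u) = 0)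
    (hz : ∀ i, ∀ t ∈ Icc (0 : ℝ) 1, ∀ u ∈ U, u ∉ K → f i (t, u) = 0)
    (hdiv : ∀ t, ∀ u ∈ U, fderiv ℝ f₀ (t, u) (1, 0) = ∑ i, c i * fderiv ℝ (f i) (t, u) (0, v i)) :
    ∫ u in U, f₀ (0, u) ∂μ = ∫ u in U, f₀ (1, u) ∂μ := by
  have hO : IsOpen ((univ : Set ℝ) ×ˢ U) := isOpen_univ.prod hU
  have e1 : ∀ t ∈ Icc (0 : ℝ) 1, ∫ u in U, f₀ (t, u) ∂μ = ∫ u in K, f₀ (t, u) ∂μ := fun t ht =>
    setIntegral_eq_of_subset_of_forall_sdiff_eq_zero hU.measurableSet hKU
      fun u hu => hz₀ t ht u hu.1 hu.2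
  have e2 : ∀ t ∈ Icc (0 : ℝ) 1, ∫ u in K, fderiv ℝ f₀ (t, u) (1, 0) ∂μ = 0 := fun t ht => by
    rw [setIntegral_congr_fun hK.measurableSet fun u hu => hdiv t u (hKU hu), integral_finsetSum]
    · refine Finset.sum_eq_zero fun i _ => ?_
      rw [integral_const_mul]
      have hg : ContDiffOn ℝ 1 (fun u => f i (t, u)) U :=
        (hf i).comp (contDiff_prodMk_right t).contDiffOn fun u hu => ⟨trivial, hu⟩
      have := setIntegral_fderiv_eq_zero μ hU hK hKU hg (hz i t ht) (v i)
      rw [setIntegral_congr_fun hK.measurableSet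
        (g := fun u => fderiv ℝ (f i) (t, u) (0, v i)) fun u hu => ?_] at this
      · rw [this, mul_zero]
      · simp only
        rw [(hasFDerivAt_slice_right (((hf i).contDiffAt
          (hO.mem_nhds ⟨trivial, hKU hu⟩)).differentiableAt (by norm_num))).fderiv]
        simp
    · intro i _
      have : ContinuousOn (fun u => fderiv ℝ (f i) (t, u) (0, v i)) K :=
        (((hf i).continuousOn_fderiv_of_isOpen hO le_rfl).clm_apply
          continuousOn_const).comp (Continuous.prodMk_right t).continuousOn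
          fun u hu => ⟨trivial, hKU hu⟩
      exact Integrable.const_mul (this.integrableOn_compact hK) _
  rw [e1 0 (by simp), e1 1 (by simp)]
  have hd := hasDerivAt_setIntegral μ hU hK hKU h₀
  refine (constant_of_has_deriv_right_zero (f := fun s => ∫ u in K, f₀ (s, u) ∂μ) (a := 0) (b := 1)
    (fun s _ => (hd s).continuousAt.continuousWithinAt) (fun s hs => ?_) 1 (by simp)).symm
  have := (hd s).hasDerivWithinAt (s := Ici s)
  rwa [e2 s (Ico_subset_Icc_self hs)] at this

end IntHtp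

open IntHtp in
theorem intHtp : IntHtpStmt := by
  intro E _ _ _ _ _ μ _ U K F ρ hU hK hKU hF hρ hz
  have hO : IsOpen ((univ : Set ℝ) ×ˢ U) := isOpen_univ.prod hU
  set d := finrank ℝ E with hd
  let b : Basis (Fin d) ℝ E := finBasis ℝ E
  obtain ⟨w₀, hw₀⟩ := exists_detForm b
  let V : Fin (d + 1) → ℝ × E := Fin.cons (1, 0) fun i => (0, b i)
  let f : Fin (d + 1) → ℝ × E → ℝ := fun i y =>
    (ρ (F y) • w₀) (fun j => fderiv ℝ F y (V (i.succAbove j)))
  have hf : ∀ i, ContDiffOn ℝ 1 (f i) (univ ×ˢ U) := fun i => by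
    have h1 : ContDiffOn ℝ 1 (fun y => ρ (F y)) (univ ×ˢ U) :=
      (hρ.comp_contDiffOn hF).of_le (by norm_cast)
    have h2 : ContDiffOn ℝ 1 (fun y => fun j => fderiv ℝ F y (V (i.succAbove j))) (univ ×ˢ U) :=
      contDiffOn_pi.2 fun j =>
        (hF.fderiv_of_isOpen hO (m := 1) (by norm_cast)).clm_apply contDiffOn_const
    exact h1.mul (w₀.toContinuousMultilinearMap.contDiff.comp_contDiffOn h2)
  have hfz : ∀ i, ∀ t ∈ Icc (0 : ℝ) 1, ∀ u ∈ U, u ∉ K → f i (t, u) = 0 := fun i t ht u hu huK => by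
    simp only [f, image_eq_zero_of_notMem_tsupport (hz t ht u hu huK), zero_smul]
    rfl
  have hFd : ∀ t, ∀ u ∈ U, ContDiffAt ℝ 2 F (t, u) := fun t u hu =>
    (hF.contDiffAt (hO.mem_nhds ⟨trivial, hu⟩)).of_le (by norm_cast)
  have key := integral_eq_of_div μ hU hK hKU (f₀ := f 0) (f := fun i => f i.succ)
    (fun i => (-1 : ℝ) ^ i.val) b (hf 0) (fun i => hf _) (hfz 0) (fun i => hfz _) fun t u hu => by
      have h := sum_fderiv_eq_zero (w := fun y => ρ y • w₀) V
        ((hρ.differentiable (by simp) _).smul_const w₀) (hFd t u hu) fun hli => by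
          have := hli.fintype_card_le_finrank
          simp only [Fintype.card_fin] at this
          omega
      rw [Fin.sum_univ_succ] at h
      simp only [Fin.val_zero, pow_zero, one_mul, Fin.val_succ, pow_succ, mul_neg, mul_one, neg_mul,
        Finset.sum_neg_distrib] at h
      exact eq_of_sub_eq_zero (by rw [sub_eq_add_neg]; exact h)
  have e : ∀ t, ∫ u in U, ρ (F (t, u)) * (fderiv ℝ (fun v => F (t, v)) u).det ∂μ =
      ∫ u in U, f 0 (t, u) ∂μ := fun t => by
    refine setIntegral_congr_fun hU.measurableSet fun u hu => ?_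
    simp only [f, ContinuousAlternatingMap.smul_apply, smul_eq_mul, hw₀]
    congr 1
    rw [(hasFDerivAt_slice_right ((hFd t u hu).differentiableAt (by norm_num))).fderiv]
    have := b.det_comp
      (((fderiv ℝ F (t, u)).comp (ContinuousLinearMap.inr ℝ ℝ E) : E →L[ℝ] E) : E →ₗ[ℝ] E) b
    rw [b.det_self, mul_one] at this
    rw [ContinuousLinearMap.det, ← this]
    rfl
  rw [e 0, e 1, key]

end Crest.Agent.Lib.Degree
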