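import Crest.Agent.Lib.Degree.Defs

/-!
# The degree of a word map on unit quaternions is the determinant of its exponent matrix
-/

set_option autoImplicit false

noncomputable section

namespace Crest.Agent.Lib.Degree

open Set Function
open scoped ContDiff Quaternion

namespace WordAux

variable {ι : Type} [Fintype ι]

/-- Smooth maps from `U0` to the unit quaternions. -/
structure Sm (f : (ι → ℍ[ℝ]) → ℍ[ℝ]) : Prop where
  smooth : ContDiffOn ℝ ∞ f (U0 ι)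
  norm : ∀ u ∈ U0 ι, ‖f u‖ = 1

theorem Sm.mul {f g : (ι → ℍ[ℝ]) → ℍ[ℝ]} (hf : Sm f) (hg : Sm g) : Sm fun u => f u * g u :=
  ⟨hf.smooth.mul hg.smooth, fun u hu => by rw [norm_mul, hf.norm u hu, hg.norm u hu, one_mul]⟩

theorem Sm.const {c : ℍ[ℝ]} (hc : ‖c‖ = 1) : Sm fun _ : ι → ℍ[ℝ] => c :=
  ⟨contDiffOn_const, fun _ _ => hc⟩

theorem Sm.ne_zero {f : (ι → ℍ[ℝ]) → ℍ[ℝ]} (hf : Sm f) {u : ι → ℍ[ℝ]} (hu : u ∈ U0 ι) :
    f u ≠ 0 := by
  rw [← norm_ne_zero_iff, hf.norm u hu]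
  exact one_ne_zero

theorem Sm.update [DecidableEq ι] {W : ι → (ι → ℍ[ℝ]) → ℍ[ℝ]} (hW : ∀ j, Sm (W j)) (i : ι)
    {f : (ι → ℍ[ℝ]) → ℍ[ℝ]} (hf : Sm f) (j : ι) : Sm (update W i f j) := by
  by_cases h : j = i
  · rw [h, update_self]
    exact hf
  · rw [update_of_ne h]
    exact hW j

/-- The radial extension of a tuple of maps. -/
def R (W : ι → (ι → ℍ[ℝ]) → ℍ[ℝ]) (u : ι → ℍ[ℝ]) : ι → ℍ[ℝ] := fun i => ‖u i‖ • W i u

theorem contDiffOn_R {W : ι → (ι → ℍ[ℝ]) → ℍ[ℝ]} (hW : ∀ j, Sm (W j)) :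
    ContDiffOn ℝ ∞ (R W) (U0 ι) :=
  contDiffOn_pi.2 fun i => (contDiffOn_norm_apply i).smul (hW i).smooth

theorem norm_R {W : ι → (ι → ℍ[ℝ]) → ℍ[ℝ]} (hW : ∀ j, Sm (W j)) {u : ι → ℍ[ℝ]} (hu : u ∈ U0 ι)
    (i : ι) : ‖R W u i‖ = ‖u i‖ := by
  simp [R, norm_smul, (hW i).norm u hu]

theorem isCompact_shell {y : ℝ → ι → ℍ[ℝ]} (hy : Continuous y) :
    IsCompact {p : ℝ × (ι → ℍ[ℝ]) | p.1 ∈ Icc (0 : ℝ) 1 ∧ ∀ i, ‖p.2 i‖ = ‖y p.1 i‖} := by
  obtain ⟨C, hC⟩ := (isCompact_Icc.image hy (s := Icc (0 : ℝ) 1)).isBounded.exists_norm_le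
  refine ((isCompact_Icc (a := (0 : ℝ)) (b := 1)).prod
    (isCompact_closedBall (0 : ι → ℍ[ℝ]) C)).of_isClosed_subset ?_ ?_
  · refine (isClosed_Icc.preimage continuous_fst).inter ?_
    rw [show (fun p : ℝ × (ι → ℍ[ℝ]) => ∀ i, ‖p.2 i‖ = ‖y p.1 i‖) =
      (⋂ i, {p : ℝ × (ι → ℍ[ℝ]) | ‖p.2 i‖ = ‖y p.1 i‖}) from (ofPred_forall _)]
    exact isClosed_iInter fun i => isClosed_eq (by fun_prop) (by fun_prop)
  · rintro ⟨t, u⟩ ⟨ht, hu⟩
    have h1 := hC _ ⟨t, ht, rfl⟩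
    refine ⟨ht, mem_closedBall_zero_iff.2 ((pi_norm_le_iff_of_nonneg
      ((norm_nonneg _).trans h1)).2 fun i => ?_)⟩
    exact (hu i).trans_le ((norm_le_pi_norm _ i).trans h1)

theorem isCompact_sol {F : ℝ × (ι → ℍ[ℝ]) → ι → ℍ[ℝ]} {y : ℝ → ι → ℍ[ℝ]} (hy : Continuous y)
    (hy0 : ∀ t, y t ∈ U0 ι) (hF : ContinuousOn F (univ ×ˢ U0 ι))
    (hn : ∀ p : ℝ × (ι → ℍ[ℝ]), p.2 ∈ U0 ι → ∀ i, ‖F p i‖ = ‖p.2 i‖) :
    IsCompact {p : ℝ × (ι → ℍ[ℝ]) | p.1 ∈ Icc (0 : ℝ) 1 ∧ p.2 ∈ U0 ι ∧ F p = y p.1} := by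
  have hK := isCompact_shell hy
  have hsub : ∀ p ∈ {p : ℝ × (ι → ℍ[ℝ]) | p.1 ∈ Icc (0 : ℝ) 1 ∧ ∀ i, ‖p.2 i‖ = ‖y p.1 i‖},
      p.2 ∈ U0 ι := fun p hp i => by
    rw [← norm_ne_zero_iff, hp.2 i, norm_ne_zero_iff]
    exact hy0 _ i
  have hc := ((hF.mono fun p hp => ⟨trivial, hsub p hp⟩).sub
    (hy.comp continuous_fst).continuousOn).preimage_isClosed_of_isClosed hK.isClosed
    (isClosed_singleton (x := 0))
  refine hK.of_isClosed_subset ?_ fun p hp => ⟨hp.1, fun i => by rw [← hn p hp.2.1, hp.2.2]⟩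
  convert hc using 1
  ext p
  simp only [mem_ofPred_eq, mem_inter_iff, mem_preimage, mem_singleton_iff, Pi.sub_apply,
    sub_eq_zero, comp_apply]
  exact ⟨fun hp => ⟨⟨hp.1, fun i => by rw [← hn p hp.2.1, hp.2.2]⟩, hp.2.2⟩,
    fun hp => ⟨hp.1.1, hsub p hp.1, hp.2⟩⟩

theorem adm_R {W : ι → (ι → ℍ[ℝ]) → ℍ[ℝ]} (hW : ∀ j, Sm (W j)) {y : ι → ℍ[ℝ]} (hy : y ∈ U0 ι) :
    Adm (fun u => R W u - y) (U0 ι) := by
  refine ⟨isOpen_U0, (contDiffOn_R hW).sub contDiffOn_const, ?_⟩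
  have := (isCompact_sol (F := fun p => R W p.2) (y := fun _ => y) continuous_const (fun _ => hy)
    ((contDiffOn_R hW).continuousOn.comp continuousOn_snd fun _ hp => hp.2)
    fun p hp => norm_R hW hp).image continuous_snd
  refine (congrArg IsCompact (Set.ext fun u => ?_)).mp this
  simp only [mem_ofPred_eq, sub_eq_zero, mem_image]
  exact ⟨by rintro ⟨p, hp, rfl⟩; exact hp.2, fun h => ⟨(0, u), ⟨by simp, h⟩, rfl⟩⟩

variable (D : Deg (ι → ℍ[ℝ]))

/-- The degree of a tuple. -/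
def d (W : ι → (ι → ℍ[ℝ]) → ℍ[ℝ]) (y : ι → ℍ[ℝ]) : ℝ := D.deg (fun u => R W u - y) (U0 ι)

theorem d_target {W : ι → (ι → ℍ[ℝ]) → ℍ[ℝ]} (hW : ∀ j, Sm (W j)) {y y' : ι → ℍ[ℝ]}
    (hy : y ∈ U0 ι) (hy' : y' ∈ U0 ι) : d D W y = d D W y' := by
  have h1 : IsPathConnected ({0}ᶜ : Set ℍ[ℝ]) :=
    isPathConnected_compl_singleton_of_one_lt_rank (by rw [Quaternion.rank_eq_four]; norm_num) 0
  have h2 : JoinedIn (univ.pi fun _ : ι => ({0}ᶜ : Set ℍ[ℝ])) y y' :=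
    JoinedIn.pi fun i => h1.joinedIn _ (hy i) _ (hy' i)
  obtain ⟨γ, hγ⟩ := h2
  have h3 : ∀ t, γ.extend t ∈ U0 ι := fun t i => by
    obtain ⟨s, hs⟩ : γ.extend t ∈ range γ := γ.extend_range ▸ mem_range_self t
    rw [← hs]
    exact hγ s i trivial
  have := D.target (R W) (U0 ι) γ.extend isOpen_U0 (contDiffOn_R hW)
    γ.continuous_extend.continuousOn
    (isCompact_sol (F := fun p => R W p.2) γ.continuous_extend h3
      ((contDiffOn_R hW).continuousOn.comp continuousOn_snd fun _ hp => hp.2)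
      fun p hp => norm_R hW hp)
  simpa [d] using this

theorem line_ne_zero {a b : ℍ[ℝ]} (ha : ‖a‖ = 1) (hb : ‖b‖ = 1) (h : b ≠ -a) (s : ℝ) :
    (1 - s) • a + s • b ≠ 0 := by
  intro h0
  have h1 : s • b = -((1 - s) • a) := eq_neg_of_add_eq_zero_right h0
  have h2 := congrArg norm h1
  rw [norm_neg, norm_smul, norm_smul, ha, hb, mul_one, mul_one, Real.norm_eq_abs,
    Real.norm_eq_abs, abs_eq_abs] at h2
  have h3 : 1 - s = s := by rcases h2 with h2 | h2 <;> linarith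
  have h4 : s ≠ 0 := by
    rintro rfl
    simp at h3
  rw [h3, ← smul_neg] at h1
  exact h (smul_right_injective _ h4 h1)

theorem norm_normalize {a : ℍ[ℝ]} (ha : a ≠ 0) : ‖‖a‖⁻¹ • a‖ = 1 := by
  rw [norm_smul, norm_inv, norm_norm, inv_mul_cancel₀ (norm_ne_zero_iff.2 ha)]

/-- Tuples that are never antipodal have the same degree. -/
theorem d_eq_of_ne_neg {W W' : ι → (ι → ℍ[ℝ]) → ℍ[ℝ]} (hW : ∀ j, Sm (W j)) (hW' : ∀ j, Sm (W' j))
    (h : ∀ j, ∀ u ∈ U0 ι, W' j u ≠ -W j u) {y : ι → ℍ[ℝ]} (hy : y ∈ U0 ι) :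
    d D W y = d D W' y := by
  let v : ι → ℝ × (ι → ℍ[ℝ]) → ℍ[ℝ] := fun j p => (1 - p.1) • W j p.2 + p.1 • W' j p.2
  have hv0 : ∀ j, ∀ p : ℝ × (ι → ℍ[ℝ]), p.2 ∈ U0 ι → v j p ≠ 0 := fun j p hp =>
    line_ne_zero ((hW j).norm _ hp) ((hW' j).norm _ hp) (h j _ hp) _
  have hv : ∀ j, ContDiffOn ℝ ∞ (v j) (univ ×ˢ U0 ι) := fun j =>
    ((contDiffOn_const.sub contDiffOn_fst).smul
      ((hW j).smooth.comp contDiffOn_snd fun _ hp => hp.2)).add
      (contDiffOn_fst.smul ((hW' j).smooth.comp contDiffOn_snd fun _ hp => hp.2))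
  let F : ℝ × (ι → ℍ[ℝ]) → ι → ℍ[ℝ] := fun p j => ‖p.2 j‖ • ‖v j p‖⁻¹ • v j p
  have hF : ContDiffOn ℝ ∞ F (univ ×ˢ U0 ι) := contDiffOn_pi.2 fun j =>
    ((contDiffOn_norm_apply j).comp contDiffOn_snd fun _ hp => hp.2).smul
      ((((hv j).norm ℝ fun p hp => hv0 j p hp.2).inv
        fun p hp => norm_ne_zero_iff.2 (hv0 j p hp.2)).smul (hv j))
  have hc := isCompact_sol (F := F) (y := fun _ => y) continuous_const (fun _ => hy)
    hF.continuousOn fun p hp j => by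
      rw [norm_smul, norm_normalize (hv0 j p hp), norm_norm, mul_one]
  have := D.htp (fun p => F p - y) (U0 ι) isOpen_U0 (hF.sub contDiffOn_const)
    (by simpa only [sub_eq_zero] using hc)
  refine (D.congr fun u hu => ?_).trans (this.trans (D.congr fun u hu => ?_))
  · ext1 j
    simp [F, v, R, (hW j).norm u hu]
  · ext1 j
    simp [F, v, R, (hW' j).norm u hu]

variable [DecidableEq ι]

theorem ne_neg_self {a : ℍ[ℝ]} (ha : a ≠ 0) : a ≠ -a := fun h => ha (by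
  have : (2 : ℝ) • a = 0 := by rw [two_smul]; exact add_eq_zero_iff_eq_neg.2 h
  simpa using this)

theorem d_slot {W : ι → (ι → ℍ[ℝ]) → ℍ[ℝ]} (hW : ∀ j, Sm (W j)) (i : ι)
    {f g : (ι → ℍ[ℝ]) → ℍ[ℝ]} (hf : Sm f) (hg : Sm g) (h : ∀ u ∈ U0 ι, g u ≠ -f u)
    {y : ι → ℍ[ℝ]} (hy : y ∈ U0 ι) : d D (update W i f) y = d D (update W i g) y := by
  refine d_eq_of_ne_neg D (Sm.update hW i hf) (Sm.update hW i hg) (fun j u hu => ?_) hy
  by_cases hj : j = i
  · rw [hj, update_self, update_self]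
    exact h u hu
  · rw [update_of_ne hj, update_of_ne hj]
    exact ne_neg_self ((hW j).ne_zero hu)

theorem exists_sq_eq_neg_one : ∃ c : ℍ[ℝ], ‖c‖ = 1 ∧ c ≠ -1 ∧ c * c = -1 := by
  obtain ⟨c, h⟩ : ∃ c : ℍ[ℝ], c * c = -1 := ⟨⟨0, 1, 0, 0⟩, by ext <;> simp⟩
  refine ⟨c, ?_, ?_, h⟩
  · have := congrArg norm h
    rw [norm_mul, norm_neg, norm_one] at this
    nlinarith [norm_nonneg c]
  · rintro rfl
    exact ne_neg_self one_ne_zero (by simpa using h)

theorem d_mul_right {W : ι → (ι → ℍ[ℝ]) → ℍ[ℝ]} (hW : ∀ j, Sm (W j)) (i : ι)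
    {f : (ι → ℍ[ℝ]) → ℍ[ℝ]} (hf : Sm f) {c : ℍ[ℝ]} (hc : ‖c‖ = 1) {y : ι → ℍ[ℝ]}
    (hy : y ∈ U0 ι) : d D (update W i fun u => f u * c) y = d D (update W i f) y := by
  have key : ∀ {f : (ι → ℍ[ℝ]) → ℍ[ℝ]}, Sm f → ∀ {c : ℍ[ℝ]}, ‖c‖ = 1 → c ≠ -1 →
      d D (update W i fun u => f u * c) y = d D (update W i f) y := by
    intro f hf c hc h1
    refine (d_slot D hW i hf (hf.mul (Sm.const hc)) (fun u hu h => h1 ?_) hy).symm
    exact mul_left_cancel₀ (hf.ne_zero hu) (by simpa using h)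
  by_cases h1 : c = -1
  · obtain ⟨e, he, he1, he2⟩ := exists_sq_eq_neg_one
    rw [← key hf he he1, ← key (hf.mul (Sm.const he)) he he1]
    simp only [mul_assoc, he2, h1]
  · exact key hf hc h1

theorem d_mul_left {W : ι → (ι → ℍ[ℝ]) → ℍ[ℝ]} (hW : ∀ j, Sm (W j)) (i : ι)
    {f : (ι → ℍ[ℝ]) → ℍ[ℝ]} (hf : Sm f) {c : ℍ[ℝ]} (hc : ‖c‖ = 1) {y : ι → ℍ[ℝ]}
    (hy : y ∈ U0 ι) : d D (update W i fun u => c * f u) y = d D (update W i f) y := by
  have key : ∀ {f : (ι → ℍ[ℝ]) → ℍ[ℝ]}, Sm f → ∀ {c : ℍ[ℝ]}, ‖c‖ = 1 → c ≠ -1 →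
      d D (update W i fun u => c * f u) y = d D (update W i f) y := by
    intro f hf c hc h1
    refine (d_slot D hW i hf ((Sm.const hc).mul hf) (fun u hu h => h1 ?_) hy).symm
    exact mul_right_cancel₀ (hf.ne_zero hu) (by simpa using h)
  by_cases h1 : c = -1
  · obtain ⟨e, he, he1, he2⟩ := exists_sq_eq_neg_one
    rw [← key hf he he1, ← key ((Sm.const he).mul hf) he he1]
    simp only [← mul_assoc, he2, h1]
  · exact key hf hc h1

omit [DecidableEq ι] in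
/-- Collapse everything outside a small ball around `a` to `-a`. -/
theorem exists_collapse {f : (ι → ℍ[ℝ]) → ℍ[ℝ]} (hf : Sm f) {a : ℍ[ℝ]} (ha : ‖a‖ = 1) {r : ℝ}
    (hr : 0 < r) : ∃ f₁, Sm f₁ ∧ (∀ u ∈ U0 ι, f₁ u ≠ -f u) ∧
      ∀ u ∈ U0 ι, r ≤ ‖f u - a‖ → f₁ u = -a := by
  let φ : ContDiffBump a := ⟨r / 2, r, by positivity, by linarith⟩
  let v : (ι → ℍ[ℝ]) → ℍ[ℝ] := fun u => φ (f u) • f u - (1 - φ (f u)) • a
  have key : ∀ u ∈ U0 ι, ∀ l : ℝ, 0 ≤ l → v u ≠ -(l • f u) := by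
    intro u hu l hl h
    have h0 : 0 ≤ φ (f u) := φ.nonneg
    have h1 : φ (f u) ≤ 1 := φ.le_one
    have h2 : (φ (f u) + l) • f u = (1 - φ (f u)) • a := by
      rw [add_smul, ← sub_eq_zero, ← sub_add_eq_add_sub]
      exact add_eq_zero_iff_eq_neg.2 h
    have h3 := congrArg norm h2
    rw [norm_smul, norm_smul, hf.norm u hu, ha, mul_one, mul_one, Real.norm_of_nonneg (by linarith),
      Real.norm_of_nonneg (by linarith)] at h3
    have h4 : 1 - φ (f u) ≠ 0 := fun h => by linarith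
    rw [h3] at h2
    have h5 : f u = a := smul_right_injective _ h4 h2
    exact h4 (by rw [h5, φ.one_of_mem_closedBall (Metric.mem_closedBall_self φ.rIn_pos.le),
      sub_self])
  have hv0 : ∀ u ∈ U0 ι, v u ≠ 0 := fun u hu => by simpa using key u hu 0 le_rfl
  have hφ : ContDiffOn ℝ ∞ (fun u => φ (f u)) (U0 ι) := φ.contDiff.comp_contDiffOn hf.smooth
  have hv : ContDiffOn ℝ ∞ v (U0 ι) :=
    (hφ.smul hf.smooth).sub ((contDiffOn_const.sub hφ).smul contDiffOn_const)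
  refine ⟨fun u => ‖v u‖⁻¹ • v u, ⟨((hv.norm ℝ hv0).inv
    fun u hu => norm_ne_zero_iff.2 (hv0 u hu)).smul hv, fun u hu => norm_normalize (hv0 u hu)⟩,
    fun u hu h => key u hu ‖v u‖ (norm_nonneg _) ?_, fun u _ h => ?_⟩
  · rw [← smul_neg, ← h, smul_inv_smul₀ (norm_ne_zero_iff.2 (hv0 u hu))]
  · have h0 : φ (f u) = 0 := φ.zero_of_le_dist (by rwa [dist_eq_norm])
    simp [v, h0, ha]

omit [DecidableEq ι] in
/-- A generic choice of values. -/
theorem exists_generic {W : ι → (ι → ℍ[ℝ]) → ℍ[ℝ]} (hW : ∀ j, Sm (W j))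
    {f : (ι → ℍ[ℝ]) → ℍ[ℝ]} (hf : Sm f) :
    ∃ (a : ℍ[ℝ]) (y : ι → ℍ[ℝ]), ‖a‖ = 1 ∧ y ∈ U0 ι ∧ ∀ u ∈ U0 ι, f u = a → R W u ≠ y := by
  let Φ : ℝ × (ι → ℍ[ℝ]) → ℍ[ℝ] × (ι → ℍ[ℝ]) := fun p => (p.1 • f p.2, R W p.2)
  have hΦ : ContDiffOn ℝ ∞ Φ (univ ×ˢ U0 ι) :=
    (contDiffOn_fst.smul (hf.smooth.comp contDiffOn_snd fun _ hp => hp.2)).prodMk
      ((contDiffOn_R hW).comp contDiffOn_snd fun _ hp => hp.2)
  have h1 : dimH (Φ '' univ ×ˢ U0 ι) ≤ dimH ((univ : Set ℝ) ×ˢ U0 ι) := by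
    refine dimH_image_le_of_locally_lipschitzOn fun p hp => ?_
    obtain ⟨C, t, ht, h⟩ := ((hΦ.contDiffAt ((isOpen_univ.prod isOpen_U0).mem_nhds hp)).of_le
      (show (1 : WithTop ℕ∞) ≤ ∞ by simp)).exists_lipschitzOnWith
    exact ⟨C, t, nhdsWithin_le_nhds ht, h⟩
  have h2 : Dense (Φ '' univ ×ˢ U0 ι)ᶜ := by
    refine dense_compl_of_dimH_lt_finrank (h1.trans_lt ((dimH_mono (subset_univ _)).trans_lt ?_))
    rw [Real.dimH_univ_eq_finrank, Nat.cast_lt, Module.finrank_prod, Module.finrank_prod,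
      Module.finrank_self, Quaternion.finrank_eq_four]
    omega
  obtain ⟨⟨α, y⟩, h3, hα, hy⟩ := h2.exists_mem_open (U := {0}ᶜ ×ˢ U0 ι)
    (isOpen_compl_singleton.prod isOpen_U0) ⟨(1, 1), by simp, fun i => by simp⟩
  refine ⟨‖α‖⁻¹ • α, y, norm_normalize hα, hy, fun u hu h4 h5 => h3 ⟨(‖α‖, u), ⟨trivial, hu⟩, ?_⟩⟩
  simp only [Φ, h4, h5, smul_inv_smul₀ (norm_ne_zero_iff.2 hα)]

omit [DecidableEq ι] in
theorem deg_split {F : (ι → ℍ[ℝ]) → ι → ℍ[ℝ]} {U V V' : Set (ι → ℍ[ℝ])} (hF : Adm F U)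
    (hV : IsOpen V) (hV' : IsOpen V') (h : V ⊆ U) (h' : V' ⊆ U) (hd : Disjoint V V')
    (hz : ∀ u ∈ U, F u = 0 → u ∈ V ∪ V') : D.deg F U = D.deg F V + D.deg F V' := by
  rw [D.excision hF (hV.union hV') (union_subset h h') hz]
  refine D.add ⟨hV, hF.smooth.mono h, ?_⟩ ⟨hV', hF.smooth.mono h', ?_⟩ hd
  · refine (congrArg IsCompact (Set.ext fun u => ?_)).mp (hF.compact.diff hV')
    exact ⟨fun hu => ⟨(hz u hu.1.1 hu.1.2).resolve_right hu.2, hu.1.2⟩,
      fun hu => ⟨⟨h hu.1, hu.2⟩, disjoint_left.1 hd hu.1⟩⟩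
  · refine (congrArg IsCompact (Set.ext fun u => ?_)).mp (hF.compact.diff hV)
    exact ⟨fun hu => ⟨(hz u hu.1.1 hu.1.2).resolve_left hu.2, hu.1.2⟩,
      fun hu => ⟨⟨h' hu.1, hu.2⟩, disjoint_right.1 hd hu.1⟩⟩

/-- The degree is additive in each slot. -/
theorem d_mul {W : ι → (ι → ℍ[ℝ]) → ℍ[ℝ]} (hW : ∀ j, Sm (W j)) (i : ι)
    {f g : (ι → ℍ[ℝ]) → ℍ[ℝ]} (hf : Sm f) (hg : Sm g) {y₀ : ι → ℍ[ℝ]} (hy₀ : y₀ ∈ U0 ι) :
    d D (update W i fun u => f u * g u) y₀ = d D (update W i f) y₀ + d D (update W i g) y₀ := by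
  obtain ⟨a, y, ha, hy, hgen⟩ := exists_generic (Sm.update hW i hg) hf
  obtain ⟨b, hb, hyb⟩ : ∃ b : ℍ[ℝ], ‖b‖ = 1 ∧ ‖y i‖ • b = y i :=
    ⟨_, norm_normalize (hy i), smul_inv_smul₀ (norm_ne_zero_iff.2 (hy i)) _⟩
  let Z : Set (ι → ℍ[ℝ]) := {u | ∀ j, ‖u j‖ = ‖y j‖} ∩ R W ⁻¹' {z | ∀ j, j ≠ i → z j = y j}
  have hKU : {u : ι → ℍ[ℝ] | ∀ j, ‖u j‖ = ‖y j‖} ⊆ U0 ι := fun u hu j => by
    rw [← norm_ne_zero_iff, hu j, norm_ne_zero_iff]
    exact hy j
  have hK : IsCompact {u : ι → ℍ[ℝ] | ∀ j, ‖u j‖ = ‖y j‖} := by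
    refine (congrArg IsCompact (Set.ext fun u => ?_)).mp
      ((isCompact_shell (y := fun _ => y) continuous_const).image continuous_snd)
    exact ⟨by rintro ⟨p, hp, rfl⟩; exact hp.2, fun h => ⟨(0, u), ⟨by simp, h⟩, rfl⟩⟩
  have hZ : IsCompact Z := by
    refine hK.of_isClosed_subset (((contDiffOn_R hW).continuousOn.mono
      hKU).preimage_isClosed_of_isClosed hK.isClosed ?_) inter_subset_left
    simp only [ofPred_forall]
    exact isClosed_iInter fun j => isClosed_iInter fun _ =>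
      isClosed_eq (continuous_apply j) continuous_const
  have hfa : ContinuousOn (fun u => ‖f u - a‖) (U0 ι) :=
    (hf.smooth.continuousOn.sub continuousOn_const).norm
  have hgb : ContinuousOn (fun u => ‖g u - b‖) (U0 ι) :=
    (hg.smooth.continuousOn.sub continuousOn_const).norm
  obtain ⟨r, hr, hrZ⟩ := hZ.exists_forall_le' (f := fun u => max ‖f u - a‖ ‖g u - b‖) (a := 0)
    ((hfa.sup hgb).mono (inter_subset_left.trans hKU)) fun u hu => by
      by_contra h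
      rw [not_lt, max_le_iff, norm_le_zero_iff, norm_le_zero_iff, sub_eq_zero, sub_eq_zero] at h
      refine hgen u (hKU hu.1) h.1 (funext fun j => ?_)
      by_cases hj : j = i
      · rw [hj, R, update_self, h.2, hu.1 i, hyb]
      · rw [R, update_of_ne hj]
        exact hu.2 j hj
  obtain ⟨f₁, hf₁, hf₂, hf₃⟩ := exists_collapse hf ha (half_pos hr)
  obtain ⟨g₁, hg₁, hg₂, hg₃⟩ := exists_collapse hg hb (half_pos hr)
  have hab : ‖a * b‖ = 1 := by rw [norm_mul, ha, hb, one_mul]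
  let y' : ι → ℍ[ℝ] := update y i (‖y i‖ • -(a * b))
  have hy'n : ∀ j, ‖y' j‖ = ‖y j‖ := fun j => by
    by_cases hj : j = i
    · simp only [y', hj, update_self, norm_smul, norm_neg, hab, norm_norm, mul_one]
    · simp only [y', update_of_ne hj]
  have hy' : y' ∈ U0 ι := hKU hy'n
  have hzero : ∀ {h : (ι → ℍ[ℝ]) → ℍ[ℝ]}, Sm h → ∀ u ∈ U0 ι, R (update W i h) u - y' = 0 →
      u ∈ Z ∧ h u ≠ a * b := by
    intro h hh u hu h0
    rw [sub_eq_zero] at h0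
    have h1 : ∀ j, ‖u j‖ = ‖y j‖ := fun j => by
      rw [← norm_R (Sm.update hW i hh) hu, h0, hy'n]
    refine ⟨⟨h1, fun j hj => ?_⟩, fun h2 => ?_⟩
    · simpa only [R, y', update_of_ne hj] using congrFun h0 j
    · have h3 := congrFun h0 i
      simp only [R, y', update_self, h1 i, h2] at h3
      exact ne_neg_self (norm_ne_zero_iff.1 (hab.trans_ne one_ne_zero))
        (smul_right_injective _ (norm_ne_zero_iff.2 (hy i)) h3)
  let V : Set (ι → ℍ[ℝ]) := U0 ι ∩ {u | ‖f u - a‖ < r / 2 ∧ r / 2 < ‖g u - b‖}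
  let V' : Set (ι → ℍ[ℝ]) := U0 ι ∩ {u | r / 2 < ‖f u - a‖ ∧ ‖g u - b‖ < r / 2}
  have hV : IsOpen V := (hfa.prodMk hgb).isOpen_inter_preimage isOpen_U0
    ((isOpen_Iio (a := r / 2)).prod (isOpen_Ioi (a := r / 2)))
  have hV' : IsOpen V' := (hfa.prodMk hgb).isOpen_inter_preimage isOpen_U0
    ((isOpen_Ioi (a := r / 2)).prod (isOpen_Iio (a := r / 2)))
  have hmem : ∀ u ∈ Z, f₁ u ≠ -a → u ∈ V := fun u hu h => by
    have h1 : ‖f u - a‖ < r / 2 := not_le.1 fun h1 => h (hf₃ u (hKU hu.1) h1)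
    refine ⟨hKU hu.1, h1, ?_⟩
    rcases le_max_iff.1 (hrZ u hu) with h2 | h2 <;> linarith
  have hmem' : ∀ u ∈ Z, g₁ u ≠ -b → u ∈ V' := fun u hu h => by
    have h1 : ‖g u - b‖ < r / 2 := not_le.1 fun h1 => h (hg₃ u (hKU hu.1) h1)
    refine ⟨hKU hu.1, ?_, h1⟩
    rcases le_max_iff.1 (hrZ u hu) with h2 | h2 <;> linarith
  have hna : ‖-a‖ = 1 := by rw [norm_neg, ha]
  have hnb : ‖-b‖ = 1 := by rw [norm_neg, hb]
  have e1 : d D (update W i fun u => f u * g u) y₀ = d D (update W i fun u => f₁ u * g₁ u) y' := by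
    rw [d_slot D hW i (hf.mul hg) (hf₁.mul hg) (fun u hu h => hf₂ u hu
        (mul_right_cancel₀ (hg.ne_zero hu) (by simpa using h))) hy₀,
      d_slot D hW i (hf₁.mul hg) (hf₁.mul hg₁) (fun u hu h => hg₂ u hu
        (mul_left_cancel₀ (hf₁.ne_zero hu) (by simpa using h))) hy₀]
    exact d_target D (Sm.update hW i (hf₁.mul hg₁)) hy₀ hy'
  have e2 : d D (update W i f) y₀ = d D (update W i fun u => f₁ u * -b) y' := by
    rw [d_mul_right D hW i hf₁ hnb hy', d_slot D hW i hf hf₁ hf₂ hy₀]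
    exact d_target D (Sm.update hW i hf₁) hy₀ hy'
  have e3 : d D (update W i g) y₀ = d D (update W i fun u => -a * g₁ u) y' := by
    rw [d_mul_left D hW i hg₁ hna hy', d_slot D hW i hg hg₁ hg₂ hy₀]
    exact d_target D (Sm.update hW i hg₁) hy₀ hy'
  have hcongr : ∀ {h h' : (ι → ℍ[ℝ]) → ℍ[ℝ]} {u}, h u = h' u →
      R (update W i h) u - y' = R (update W i h') u - y' := by
    intro h h' u e
    congr 1
    ext1 j
    by_cases hj : j = i
    · simp only [R, hj, update_self, e]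
    · simp only [R, update_of_ne hj]
  rw [e1, e2, e3, d, d, d,
    deg_split D (adm_R (Sm.update hW i (hf₁.mul hg₁)) hy') hV hV' inter_subset_left
      inter_subset_left (disjoint_left.2 fun u h h' => lt_asymm h.2.1 h'.2.1) fun u hu h0 => ?_,
    D.excision (adm_R (Sm.update hW i (hf₁.mul (Sm.const hnb))) hy') hV inter_subset_left
      fun u hu h0 => ?_,
    D.excision (adm_R (Sm.update hW i ((Sm.const hna).mul hg₁)) hy') hV' inter_subset_left
      fun u hu h0 => ?_]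
  · congr 1
    · exact D.congr fun u hu => hcongr (by rw [hg₃ u hu.1 hu.2.2.le])
    · exact D.congr fun u hu => hcongr (by rw [hf₃ u hu.1 hu.2.1.le])
  · obtain ⟨h1, h2⟩ := hzero ((Sm.const hna).mul hg₁) u hu h0
    exact hmem' u h1 fun h => h2 (by rw [h, neg_mul_neg])
  · obtain ⟨h1, h2⟩ := hzero (hf₁.mul (Sm.const hnb)) u hu h0
    exact hmem u h1 fun h => h2 (by rw [h, neg_mul_neg])
  · obtain ⟨h1, h2⟩ := hzero (hf₁.mul hg₁) u hu h0
    by_cases h : f₁ u = -a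
    · exact Or.inr (hmem' u h1 fun h' => h2 (by rw [h, h', neg_mul_neg]))
    · exact Or.inl (hmem u h1 h)

theorem d_eq_zero {W : ι → (ι → ℍ[ℝ]) → ℍ[ℝ]} (hW : ∀ j, Sm (W j)) {i j : ι} (hij : i ≠ j)
    (h : W i = W j) {y : ι → ℍ[ℝ]} (hy : y ∈ U0 ι) : d D W y = 0 := by
  have hy' : update (1 : ι → ℍ[ℝ]) j (-1) ∈ U0 ι := fun k => by
    by_cases hk : k = j
    · simp [hk]
    · simp [hk]
  rw [d_target D hW hy hy']
  by_contra h0
  obtain ⟨u, hu, h1⟩ := D.exists_zero (adm_R hW hy') h0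
  rw [sub_eq_zero] at h1
  have h2 := norm_R hW hu i
  have h3 := norm_R hW hu j
  have h4 := congrFun h1 i
  have h5 := congrFun h1 j
  rw [update_of_ne hij, Pi.one_apply] at h4
  rw [update_self] at h5
  rw [h4, norm_one] at h2
  rw [h5, norm_neg, norm_one] at h3
  rw [R, ← h2, h] at h4
  rw [R, ← h3, h4] at h5
  exact ne_neg_self one_ne_zero h5

/-- An alternating, slotwise additive function on tuples of words is determined by its value at
the tuple of generators. -/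
theorem eq_zero_of_alt (Δ : (ι → FreeGroup ι) → ℝ)
    (hadd : ∀ w i a b, Δ (update w i (a * b)) = Δ (update w i a) + Δ (update w i b))
    (halt : ∀ w i j, i ≠ j → w i = w j → Δ w = 0) (h1 : Δ FreeGroup.of = 0) (w : ι → FreeGroup ι) :
    Δ w = 0 := by
  have hswap : ∀ w i j, i ≠ j → Δ (w ∘ Equiv.swap i j) = -Δ w := by
    intro w i j hij
    have hB : ∀ a, Δ (update (update w i a) j a) = 0 := fun a =>
      halt _ i j hij (by rw [update_of_ne hij, update_self, update_self])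
    have h2 := hB (w i * w j)
    rw [hadd, update_comm hij, update_comm hij, hadd, hadd, ← update_comm hij, ← update_comm hij,
      ← update_comm hij, ← update_comm hij, hB, hB, update_eq_self, update_eq_self,
      update_comm hij, ← Equiv.comp_swap_eq_update] at h2
    linarith
  have hperm : ∀ σ : Equiv.Perm ι, Δ (FreeGroup.of ∘ σ) = 0 := by
    intro σ
    induction σ using Equiv.Perm.swap_induction_on' with
    | one => exact h1
    | mul_swap σ i j hij ih =>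
      rw [Equiv.Perm.coe_mul, ← comp_assoc, hswap _ i j hij, ih, neg_zero]
  have hgen : ∀ σ : ι → ι, Δ (FreeGroup.of ∘ σ) = 0 := by
    intro σ
    by_cases hσ : Injective σ
    · exact hperm (Equiv.ofBijective σ (Finite.injective_iff_bijective.1 hσ))
    · obtain ⟨i, j, h, hij⟩ := not_injective_iff.1 hσ
      exact halt _ i j hij (congrArg FreeGroup.of h)
  have key : ∀ s : Finset ι, ∀ w : ι → FreeGroup ι, (∀ k, k ∉ s → ∃ j, w k = FreeGroup.of j) →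
      Δ w = 0 := by
    intro s
    induction s using Finset.induction_on with
    | empty =>
      intro w hw
      choose σ hσ using fun k => hw k (Finset.notMem_empty k)
      rw [show w = FreeGroup.of ∘ σ from funext hσ]
      exact hgen σ
    | insert i s _ ih =>
      intro w hw
      have h0 : Δ (update w i 1) = 0 := by
        have := hadd w i 1 1
        rw [mul_one] at this
        linarith
      have hof : ∀ x, Δ (update w i (FreeGroup.of x)) = 0 := fun x => ih _ fun k hk => by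
        by_cases h : k = i
        · exact ⟨x, by rw [h, update_self]⟩
        · rw [update_of_ne h]
          exact hw k (by simp [h, hk])
      rw [← update_eq_self i w]
      induction w i using FreeGroup.induction_on with
      | C1 => exact h0
      | of x => exact hof x
      | inv_of x _ =>
        have := hadd w i (FreeGroup.of x) (FreeGroup.of x)⁻¹
        rw [mul_inv_cancel, h0, hof] at this
        linarith
      | mul a b ha hb => rw [hadd, ha, hb, add_zero]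
  exact key Finset.univ w fun k hk => (hk (Finset.mem_univ k)).elim

omit [DecidableEq ι] in
theorem sm_ev (w : FreeGroup ι) : Sm fun u : ι → ℍ[ℝ] => (ev w u : ℍ[ℝ]) :=
  ⟨contDiffOn_ev w, fun _ _ => S3.norm_coe _⟩

end WordAux

open WordAux

/-- The degree of a word map is the determinant of its exponent matrix. -/
theorem deg_rad {ι : Type} [Fintype ι] [DecidableEq ι] (D : Deg (ι → ℍ[ℝ]))
    (w : ι → FreeGroup ι) :
    D.deg (fun u => rad w u - 1) (U0 ι) = ((Matrix.of fun i j => expo (w i) j).det : ℤ) := by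
  have h1 : (1 : ι → ℍ[ℝ]) ∈ U0 ι := fun i => by simp
  have hup : ∀ (w : ι → FreeGroup ι) i a, (fun j u => (ev (update w i a j) u : ℍ[ℝ])) =
      update (fun j u => (ev (w j) u : ℍ[ℝ])) i fun u => (ev a u : ℍ[ℝ]) := fun w i a =>
    comp_update (fun (a : FreeGroup ι) u => (ev a u : ℍ[ℝ])) w i a
  have hup' : ∀ (w : ι → FreeGroup ι) i a, (Matrix.of fun k j => expo (update w i a k) j) =
      (Matrix.of fun k j => expo (w k) j).updateRow i (expo a) := fun w i a =>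
    comp_update expo w i a
  rw [← sub_eq_zero]
  refine eq_zero_of_alt (fun w => d D (fun j u => (ev (w j) u : ℍ[ℝ])) 1 -
    ((Matrix.of fun i j => expo (w i) j).det : ℤ)) (fun w i a b => ?_) (fun w i j hij h => ?_) ?_ w
  · have e1 : (fun u => (ev (a * b) u : ℍ[ℝ])) = fun u => (ev a u : ℍ[ℝ]) * ev b u := by
      ext1 u
      simp [ev]
    have e2 : expo (a * b) = expo a + expo b := by simp [expo]
    simp only [hup, hup', e1, e2, Matrix.det_updateRow_add, Int.cast_add]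
    rw [d_mul D (fun j => sm_ev (w j)) i (sm_ev a) (sm_ev b) h1]
    ring
  · rw [d_eq_zero D (fun j => sm_ev (w j)) hij (by rw [h]) h1,
      Matrix.det_zero_of_row_eq hij (by ext k; simp [h])]
    simp
  · have e1 : (Matrix.of fun i j => expo (FreeGroup.of i : FreeGroup ι) j) = 1 := by
      ext i j
      simp [expo, Matrix.one_apply, Pi.single_apply, eq_comm]
    rw [e1, Matrix.det_one, Int.cast_one, ← D.id_sub isOpen_U0 h1, sub_eq_zero]
    refine D.congr fun u hu => ?_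
    ext1 i
    simp [R, ev, coe_nz (hu i), smul_inv_smul₀ (norm_ne_zero_iff.2 (hu i))]

/-- A nonsingular system of words has nonzero degree. -/
theorem wordDeg : WordDegStmt := fun _ _ _ D w h => by
  rw [deg_rad]
  exact Int.cast_ne_zero.2 h

end Crest.Agent.Lib.Degree
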